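import Vale.Agent.P354A.Ceq

open scoped ContDiff
open MeasureTheory Set Filter Topology

namespace Vale.Agent.P354A

open Vale.Agent.P354H Vale.Agent.P354C Vale.Agent.P354C.Ix

/-- First touching time. -/
theorem touch {M : Type} [Finite M] {z B : M → ℝ × X3 → ℝ} {T : ℝ} (hz : ∀ m, Continuous (z m))
    (hc : ∀ m, HasCompactSupport (z m)) (hB : ∀ m, Continuous (B m))
    (hp : ∀ m (p : ℝ × X3), p.1 ∈ Icc 0 T → 0 < B m p) (h0 : ∀ m x, |z m (0, x)| < B m (0, x))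
    (hs : ∀ t ∈ Ioc 0 T, (∀ m (p : ℝ × X3), p.1 ∈ Icc 0 t → |z m p| ≤ B m p) →
      ∀ m x, |z m (t, x)| ≠ B m (t, x)) :
    ∀ m (p : ℝ × X3), p.1 ∈ Icc 0 T → |z m p| < B m p := by
  by_contra hn
  let S : Set (ℝ × X3) := ⋃ m, {p | p.1 ∈ Icc 0 T ∧ B m p ≤ |z m p|}
  have hS : IsCompact S := isCompact_iUnion fun m => (hc m).isCompact.of_isClosed_subset
    ((isClosed_Icc.preimage continuous_fst).inter (isClosed_le (hB m) (hz m).abs))
    fun p h => subset_tsupport _ fun e0 => by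
      have := (hp m p h.1).trans_le h.2
      simp [e0] at this
  have hne : S.Nonempty := by
    push Not at hn
    obtain ⟨m, p, h1, h2⟩ := hn
    exact ⟨p, mem_iUnion.2 ⟨m, h1, h2⟩⟩
  obtain ⟨q, hq, hmin⟩ := hS.exists_isMinOn hne continuous_fst.continuousOn
  obtain ⟨m0, hq1, hq2⟩ := mem_iUnion.1 hq
  have ht : 0 < q.1 := hq1.1.lt_of_ne fun e0 => by
    have := h0 m0 q.2
    rw [e0] at this
    exact absurd hq2 (not_le.2 this)
  have lt : ∀ m (p : ℝ × X3), p.1 ∈ Ico 0 q.1 → |z m p| < B m p := fun m p h => by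
    by_contra hh
    exact absurd (hmin (mem_iUnion.2 ⟨m, ⟨h.1, h.2.le.trans hq1.2⟩, not_lt.1 hh⟩)) (not_le.2 h.2)
  have le : ∀ m (p : ℝ × X3), p.1 ∈ Icc 0 q.1 → |z m p| ≤ B m p := fun m p h => by
    have cl : IsClosed {s : ℝ | |z m (s, p.2)| ≤ B m (s, p.2)} :=
      isClosed_le ((hz m).comp (by fun_prop)).abs ((hB m).comp (by fun_prop))
    have sub : Ico 0 q.1 ⊆ {s : ℝ | |z m (s, p.2)| ≤ B m (s, p.2)} := fun s hs =>
      (lt m (s, p.2) hs).le
    have := cl.closure_subset_iff.2 sub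
    rw [closure_Ico ht.ne] at this
    exact this h
  exact hs q.1 ⟨ht, hq1.2⟩ le m0 q.2 (le_antisymm (le m0 q ⟨ht.le, le_rfl⟩) hq2)

/-- A one sided maximum has a nonnegative derivative. -/
theorem deriv_nn {φ : ℝ → ℝ} {d ε : ℝ} (h : HasDerivAt φ d 0) (hε : 0 < ε)
    (hm : ∀ s ∈ Ioo (-ε) 0, φ s ≤ φ 0) : 0 ≤ d := by
  refine ge_of_tendsto (hasDerivAt_iff_tendsto_slope_left_right.1 h).1 ?_
  filter_upwards [Ioo_mem_nhdsLT (show -ε < 0 by linarith)] with s hs
  rw [slope_def_field, sub_zero]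
  exact div_nonneg_of_nonpos (sub_nonpos.2 (hm s hs)) hs.2.le

theorem c0_mem (i : Ix) : (1 : ℝ) ≤ c0 i ∧ (c0 i : ℝ) ≤ 2 := by
  have : ∀ i, 1 ≤ c0 i ∧ c0 i ≤ 2 := by decide
  exact ⟨by exact_mod_cast (this i).1, by exact_mod_cast (this i).2⟩

theorem top_fa_le {k : ℝ} {K w : ℝ × X3 → Ix → ℝ} {n : ℕ} {g lo H : Ix → ℝ} {p : ℝ × X3}
    (hg : ∀ i, |Ub k K i p| ≤ g i) (hlo : ∀ i, |w p i| ≤ lo i)
    (hH : ∀ i, Pb (n + 1) (cmp w i) p (H i)) {α : List (Fin 3)} (hα : α.length ≤ n) (i : Ix) :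
    |top (fa i) ((K + w) p) (fun j => dxl α (cmp w j)) p| ≤ AB i g lo H :=
  abs_list_le _ fun t ht => by
    have e2 : (K + w) p t.2.1 = Ub k K t.2.1 p + w p t.2.1 := by
      simp [Ub, U0_eq k (fo_ne i t (List.mem_append_right _ ht))]
    have h1 : |(K + w) p t.2.1| ≤ g t.2.1 + lo t.2.1 := by
      rw [e2]; exact (abs_add_le _ _).trans (add_le_add (hg _) (hlo _))
    rw [abs_mul, abs_mul]
    exact mul_le_mul_of_nonneg_left (mul_le_mul h1 ((hH _).dx' _ hα) (abs_nonneg _)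
      ((abs_nonneg _).trans h1)) (abs_nonneg _)

/-- The derivative along the transport direction. -/
theorem line_der {f : ℝ × X3 → ℝ} (hf : Sm f) (p : ℝ × X3) (a b c d : ℝ) :
    HasDerivAt (fun s : ℝ => f (p + s • (a, b, c, d)))
      (a * dt f p + b * dx 0 f p + c * dx 1 f p + d * dx 2 f p) 0 := by
  have h1 : HasDerivAt (fun s : ℝ => p + s • ((a, b, c, d) : ℝ × X3)) (a, b, c, d) 0 := by
    simpa using ((hasDerivAt_id (0 : ℝ)).smul_const ((a, b, c, d) : ℝ × X3)).const_add p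
  have h2 : HasFDerivAt f (fderiv ℝ f p) (p + (0 : ℝ) • ((a, b, c, d) : ℝ × X3)) := by
    rw [zero_smul, add_zero]; exact (hf.dif p).hasFDerivAt
  have := h2.comp_hasDerivAt 0 h1
  rw [fd4] at this
  exact this

/-- The barrier argument. -/
theorem bar : BAR := by
  intro k T K w n act g lo H hK hS hg hB h0 hboot p hp i hi α hα
  have hw := hS.sm
  have : Finite {α : List (Fin 3) // α.length ≤ n} := (List.finite_length_le (Fin 3) n).to_subtype
  refine (touch (M := {i // act i} × {α : List (Fin 3) // α.length ≤ n})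
    (z := fun m => dxl m.2.1 (cmp w m.1.1)) (B := fun m p => lo m.1.1 p.1 p.2.1) (T := T)
    (fun m => (dxl_sm _ (hw _)).continuous) (fun m => dxl_cs _ (hS.cs _))
    (fun m => (hB _ m.1.2).1.comp (f := fun p : ℝ × X3 => (p.1, p.2.1)) (by fun_prop))
    (fun m p h => ((hB _ m.1.2).2 _ h _).1) (fun m x => h0 _ m.1.2 _ m.2.2 x) ?_
    (⟨i, hi⟩, ⟨α, hα⟩) p hp).le
  clear hi hα hp i α p
  rintro t ht hle ⟨⟨i, hi⟩, ⟨α, hα⟩⟩ x heq
  have ht' : t ∈ Icc 0 T := Ioc_subset_Icc_self ht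
  have hb := hboot t ht' (fun p h j hj β hβ => hle (⟨j, hj⟩, ⟨β, hβ⟩) p h) x
  obtain ⟨pos, B', hd, hlt⟩ := (hB i hi).2 t ht' x.1
  have q1 := ceq k T K w n n (fun j => g j t x.1) (fun j => lo j t x.1) (fun j => lo j t x.1)
    (t, x) hK hS ht' (by omega) (hg (t, x) ht') (fun j => (hb j).1) (fun j => (hb j).1) α hα i
  have q2 := top_fa_le (fun j => (hg (t, x) ht' j).zero) (fun j => (hb j).1.zero)
    (fun j => (hb j).2) hα i
  have q3 := line_der (dxl_sm α (hw i)) (t, x) (c0 i) (c1 i) (cL i * (K + w) (t, x) b1)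
    (cL i * (K + w) (t, x) b2)
  have hc := c0_mem i
  have hm : ∀ s ∈ Ioo (-(t / 2)) 0, |dxl α (cmp w i) ((t, x) + s • ((c0 i : ℝ), (c1 i : ℝ),
      cL i * (K + w) (t, x) b1, cL i * (K + w) (t, x) b2))| ≤
      lo i (t + c0 i * s) (x.1 + c1 i * s) := fun s hs => by
    have := hle (⟨i, hi⟩, ⟨α, hα⟩) ((t, x) + s • ((c0 i : ℝ), (c1 i : ℝ),
      cL i * (K + w) (t, x) b1, cL i * (K + w) (t, x) b2)) (by
        simp only [Prod.fst_add, Prod.smul_fst, smul_eq_mul]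
        constructor <;> nlinarith [hs.1, hs.2, hc.1, hc.2])
    simpa only [Prod.fst_add, Prod.smul_fst, smul_eq_mul, Prod.snd_add, Prod.smul_snd,
      mul_comm s] using this
  have e1 : top (fb i) ((K + w) (t, x)) (fun j => dxl α (cmp w j)) (t, x) =
      cL i * (K + w) (t, x) b1 * dx 1 (dxl α (cmp w i)) (t, x) +
        cL i * (K + w) (t, x) b2 * dx 2 (dxl α (cmp w i)) (t, x) := by
    simp only [top, fb, List.map_cons, List.sum_cons, List.map_nil, List.sum_nil]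
    ring
  unfold prin at q1
  rw [e1, abs_le] at q1
  rw [abs_le] at q2
  dsimp only at q1 q2
  change |dxl α (cmp w i) (t, x)| = lo i t x.1 at heq
  have t2 : 0 < t / 2 := half_pos ht.1
  rcases (abs_eq pos.le).1 heq with h | h
  · have := deriv_nn (q3.sub hd) t2 fun s hs => by
      have := (abs_le.1 (hm s hs)).2
      simp only [Pi.sub_apply, zero_smul, add_zero, mul_zero, h]
      linarith
    rw [h] at q1
    linarith [q1.2, q2.1]
  · have := deriv_nn (q3.neg.sub hd) t2 fun s hs => by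
      have := (abs_le.1 (hm s hs)).1
      simp only [Pi.sub_apply, Pi.neg_apply, zero_smul, add_zero, mul_zero, h]
      linarith
    rw [h] at q1
    linarith [q1.1, q2.2]

end Vale.Agent.P354A
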