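import Vale.Agent.P354A.Defs
import Vale.Agent.P354HL.Smooth

open scoped ContDiff
open MeasureTheory Set

namespace Vale.Agent.P354A

open Vale.Agent.P354H Vale.Agent.P354C

/-- Smooth functions on space-time. -/
abbrev Sm (f : ℝ × X3 → ℝ) : Prop := ContDiff ℝ ∞ f

/-- Derivative in the direction a. -/
noncomputable def dv (a : ℝ × X3) (f : ℝ × X3 → ℝ) (p : ℝ × X3) : ℝ := fderiv ℝ f p a

theorem dt_eq (f : ℝ × X3 → ℝ) : dt f = dv (1, 0) f := rfl
theorem dx_eq (j : Fin 3) (f : ℝ × X3 → ℝ) : dx j f = dv (0, e j) f := rfl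

variable {f g h : ℝ × X3 → ℝ} {p : ℝ × X3}

theorem Sm.dif (hf : Sm f) : Differentiable ℝ f := hf.differentiable (by simp)

theorem Sm.dv (hf : Sm f) (a : ℝ × X3) : Sm (dv a f) :=
  (hf.fderiv_right (m := ∞) (by simp)).clm_apply contDiff_const

theorem Sm.dx (hf : Sm f) (j : Fin 3) : Sm (dx j f) := hf.dv _
theorem Sm.dt (hf : Sm f) : Sm (dt f) := hf.dv _

theorem Sm.cmul (hf : Sm f) (r : ℝ) : Sm fun p => r * f p := contDiff_const.mul hf

theorem dv_comm (hf : Sm f) (a b : ℝ × X3) : dv a (dv b f) = dv b (dv a f) := by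
  have h1 : Differentiable ℝ (fderiv ℝ f) :=
    (hf.fderiv_right (m := ∞) (by simp)).differentiable (by simp)
  have h2 : ∀ a b p, dv a (dv b f) p = fderiv ℝ (fderiv ℝ f) p a b := fun a b p => by
    unfold dv
    rw [fderiv_clm_apply (h1 p) (differentiableAt_const _)]
    simp
  funext p
  rw [h2, h2]
  exact (hf.contDiffAt.isSymmSndFDerivAt (by
    rw [minSmoothness_of_isRCLikeNormedField]; exact WithTop.coe_le_coe.2 le_top)).eq a b

theorem dv_add (hf : Differentiable ℝ f) (hg : Differentiable ℝ g) (a : ℝ × X3) :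
    dv a (fun p => f p + g p) = fun p => dv a f p + dv a g p := by
  funext p
  unfold dv
  rw [fderiv_fun_add (hf p) (hg p)]
  rfl

theorem dv_mul (hf : Differentiable ℝ f) (hg : Differentiable ℝ g) (a : ℝ × X3) :
    dv a (fun p => f p * g p) = fun p => dv a f p * g p + f p * dv a g p := by
  funext p
  unfold dv
  rw [fderiv_fun_mul (hf p) (hg p)]
  simp only [add_apply, smul_apply, smul_eq_mul]
  ring

theorem dv_const (r : ℝ) (a : ℝ × X3) : dv a (fun _ => r) = fun _ => 0 := by
  funext p
  simp [dv]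

theorem dv_cmul (hf : Differentiable ℝ f) (r : ℝ) (a : ℝ × X3) :
    dv a (fun p => r * f p) = fun p => r * dv a f p := by
  rw [dv_mul (differentiable_const r) hf, dv_const]
  simp

theorem sm_list {α : Type} (L : List α) {F : α → ℝ × X3 → ℝ} (hF : ∀ t, Sm (F t)) :
    Sm fun p => (L.map fun t => F t p).sum := by
  induction L with
  | nil => exact contDiff_const
  | cons t L ih => exact (hF t).add ih

theorem dv_list {α : Type} (L : List α) {F : α → ℝ × X3 → ℝ} (hF : ∀ t, Sm (F t)) (a : ℝ × X3) :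
    dv a (fun p => (L.map fun t => F t p).sum) = fun p => (L.map fun t => dv a (F t) p).sum := by
  induction L with
  | nil => exact dv_const 0 a
  | cons t L ih =>
    simp only [List.map_cons, List.sum_cons]
    rw [dv_add (hF t).dif (sm_list L hF).dif, ih]

theorem dxl_sm (α : List (Fin 3)) (hf : Sm f) : Sm (dxl α f) := by
  induction α generalizing f with
  | nil => exact hf
  | cons j α ih => exact ih (hf.dx j)

theorem dxl_cs (α : List (Fin 3)) (hf : HasCompactSupport f) : HasCompactSupport (dxl α f) := by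
  induction α generalizing f with
  | nil => exact hf
  | cons j α ih => exact ih (hf.fderiv_apply ℝ _)

theorem dxl_add (α : List (Fin 3)) (hf : Sm f) (hg : Sm g) :
    dxl α (fun p => f p + g p) = fun p => dxl α f p + dxl α g p := by
  induction α generalizing f g with
  | nil => rfl
  | cons j α ih =>
    simp only [dxl]
    rw [dx_eq, dv_add hf.dif hg.dif, ih (hf.dv _) (hg.dv _)]
    rfl

theorem dxl_cmul (α : List (Fin 3)) (hf : Sm f) (r : ℝ) :
    dxl α (fun p => r * f p) = fun p => r * dxl α f p := by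
  induction α generalizing f with
  | nil => rfl
  | cons j α ih =>
    simp only [dxl]
    rw [dx_eq, dv_cmul hf.dif, ih (hf.dv _)]
    rfl

theorem dxl_zero (α : List (Fin 3)) : dxl α (fun _ => 0) = fun _ => 0 := by
  induction α with
  | nil => rfl
  | cons j α ih =>
    simp only [dxl]
    rw [dx_eq, dv_const, ih]

theorem dxl_list {β : Type} (α : List (Fin 3)) (L : List β) {F : β → ℝ × X3 → ℝ}
    (hF : ∀ t, Sm (F t)) : dxl α (fun p => (L.map fun t => F t p).sum) =
      fun p => (L.map fun t => dxl α (F t) p).sum := by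
  induction L with
  | nil => exact dxl_zero α
  | cons t L ih =>
    simp only [List.map_cons, List.sum_cons]
    rw [dxl_add α (hF t) (sm_list L hF), ih]

theorem dxl_dv (α : List (Fin 3)) (hf : Sm f) (a : ℝ × X3) :
    dxl α (dv a f) = dv a (dxl α f) := by
  induction α generalizing f with
  | nil => rfl
  | cons j α ih =>
    simp only [dxl]
    rw [dx_eq, dv_comm hf, ih (hf.dv _)]
    rfl

theorem dxl_append (α β : List (Fin 3)) (f : ℝ × X3 → ℝ) : dxl (α ++ β) f = dxl β (dxl α f) := by
  induction α generalizing f with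
  | nil => rfl
  | cons j α ih => exact ih _

theorem dxl_sl (α : List (Fin 3)) (hf : Sm f) (t : ℝ) : pdl α (sl f t) = sl (dxl α f) t := by
  induction α generalizing f with
  | nil => rfl
  | cons j α ih =>
    simp only [dxl, pdl]
    rw [P354HL.pd_sl hf, ih (hf.dx j)]

theorem dxl_eq_pdl (α : List (Fin 3)) (hf : Sm f) (p : ℝ × X3) :
    dxl α f p = pdl α (sl f p.1) p.2 := by
  rw [dxl_sl α hf]; rfl

theorem dxl_of_zero (α : List (Fin 3)) (hf : Sm f) (h0 : ∀ x, f (p.1, x) = 0) : dxl α f p = 0 := by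
  rw [dxl_eq_pdl α hf, show sl f p.1 = 0 from funext h0, pdl_zero]
  rfl

theorem Pb.zero {n : ℕ} {c : ℝ} (h : Pb n f p c) : |f p| ≤ c := h [] (Nat.zero_le _)

theorem Pb.nonneg {n : ℕ} {c : ℝ} (h : Pb n f p c) : 0 ≤ c := (abs_nonneg _).trans h.zero

theorem Pb.mono {n m : ℕ} {c d : ℝ} (h : Pb n f p c) (hm : m ≤ n) (hd : c ≤ d) : Pb m f p d :=
  fun α hα => (h α (hα.trans hm)).trans hd

theorem Pb.dx {n : ℕ} {c : ℝ} (h : Pb (n + 1) f p c) (j : Fin 3) : Pb n (dx j f) p c :=
  fun α hα => h (j :: α) (by simpa using hα)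

theorem Pb.dx' {n : ℕ} {c : ℝ} (h : Pb (n + 1) f p c) (j : Fin 3) {α : List (Fin 3)}
    (hα : α.length ≤ n) : |P354H.dx j (dxl α f) p| ≤ c := by
  have := h (α ++ [j]) (by simpa using hα)
  rwa [dxl_append] at this

/-- Leibniz bound. -/
theorem leib (α : List (Fin 3)) {M : ℝ} (hf : Sm f) (hg : Sm g)
    (H : ∀ β γ : List (Fin 3), β.length + γ.length = α.length →
      |dxl β f p| * |dxl γ g p| ≤ M) :
    |dxl α (fun p => f p * g p) p| ≤ 2 ^ α.length * M := by
  induction α generalizing f g with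
  | nil =>
    have := H [] [] rfl
    simpa [dxl, abs_mul] using this
  | cons j α ih =>
    simp only [dxl]
    rw [dx_eq, dv_mul hf.dif hg.dif, dxl_add α ((hf.dv _).mul hg) (hf.mul (hg.dv _))]
    have h1 := ih (hf.dv (0, e j)) hg fun β γ hl =>
      H (j :: β) γ (by simp only [List.length_cons]; omega)
    have h2 := ih hf (hg.dv (0, e j)) fun β γ hl =>
      H β (j :: γ) (by simp only [List.length_cons]; omega)
    refine (abs_add_le _ _).trans ((add_le_add h1 h2).trans (le_of_eq ?_))
    rw [List.length_cons]; ring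

/-- Commutator bound. -/
theorem commu (α : List (Fin 3)) {M : ℝ} (hf : Sm f) (hg : Sm g)
    (H : ∀ β γ : List (Fin 3), β ≠ [] → β.length + γ.length = α.length →
      |dxl β f p| * |dxl γ g p| ≤ M) :
    |dxl α (fun p => f p * g p) p - f p * dxl α g p| ≤ (2 ^ α.length - 1) * M := by
  induction α generalizing g with
  | nil => simp [dxl]
  | cons j α ih =>
    simp only [dxl]
    rw [dx_eq, dv_mul hf.dif hg.dif, dxl_add α ((hf.dv _).mul hg) (hf.mul (hg.dv _)), add_sub_assoc]
    have h1 := leib α (hf.dv (0, e j)) hg (p := p) (M := M) fun β γ hl =>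
      H (j :: β) γ (by simp) (by simp only [List.length_cons]; omega)
    have h2 := ih (hg.dv (0, e j)) fun β γ hβ hl =>
      H β (j :: γ) hβ (by simp only [List.length_cons]; omega)
    refine (abs_add_le _ _).trans ((add_le_add h1 h2).trans (le_of_eq ?_))
    rw [List.length_cons]; ring

theorem two_pow_le {a b : ℕ} (h : a ≤ b) {M : ℝ} (hM : 0 ≤ M) : 2 ^ a * M ≤ 2 ^ b * M :=
  mul_le_mul_of_nonneg_right (pow_le_pow_right₀ (by norm_num) h) hM

/-- Product of two functions with bounds of all orders. -/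
theorem Pb.mul {n : ℕ} {c d : ℝ} (h1 : Pb n f p c) (h2 : Pb n g p d) (hf : Sm f) (hg : Sm g) :
    Pb n (fun p => f p * g p) p (2 ^ n * (c * d)) := fun α hα =>
  (leib α hf hg fun β γ hl => mul_le_mul (h1 β (by omega)) (h2 γ (by omega)) (abs_nonneg _)
    h1.nonneg).trans (two_pow_le hα (mul_nonneg h1.nonneg h2.nonneg))

/-- Tame product. -/
theorem Pb.tame {n m : ℕ} {c c' d d' : ℝ} (h1 : Pb m f p c) (h1' : Pb n f p c') (h2 : Pb m g p d)
    (h2' : Pb n g p d') (hf : Sm f) (hg : Sm g) (hn : n ≤ 2 * m) :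
    Pb n (fun p => f p * g p) p (2 ^ n * (c * d' + c' * d)) := fun α hα => by
  have p1 := mul_nonneg h1.nonneg h2'.nonneg
  have p2 := mul_nonneg h1'.nonneg h2.nonneg
  refine (leib α hf hg fun β γ hl => ?_).trans (two_pow_le hα (add_nonneg p1 p2))
  by_cases hb : β.length ≤ m
  · exact (mul_le_mul (h1 β hb) (h2' γ (by omega)) (abs_nonneg _) h1.nonneg).trans
      (le_add_of_nonneg_right p2)
  · exact (mul_le_mul (h1' β (by omega)) (h2 γ (by omega)) (abs_nonneg _) h1'.nonneg).trans
      (le_add_of_nonneg_left p1)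

/-- Commutator with a bounded coefficient. -/
theorem commu1 {n : ℕ} {c d : ℝ} (h1 : Pb n f p c) (h2 : Pb n g p d) (hf : Sm f) (hg : Sm g)
    (j : Fin 3) {α : List (Fin 3)} (hα : α.length ≤ n) :
    |dxl α (fun p => f p * dx j g p) p - f p * dxl α (dx j g) p| ≤ 2 ^ n * (c * d) := by
  have p1 := mul_nonneg h1.nonneg h2.nonneg
  refine (commu α hf (hg.dx j) (M := c * d) fun β γ hβ hl => ?_).trans ?_
  · have : 0 < β.length := List.length_pos_iff.2 hβ
    exact mul_le_mul (h1 β (by omega)) (h2 (j :: γ) (by simp only [List.length_cons]; omega))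
      (abs_nonneg _) h1.nonneg
  · exact (mul_le_mul_of_nonneg_right (by linarith) p1).trans (two_pow_le hα p1)

/-- Tame commutator. -/
theorem commu2 {n m : ℕ} {c c' d d' : ℝ} (h1 : Pb m f p c) (h1' : Pb n f p c') (h2 : Pb m g p d)
    (h2' : Pb n g p d') (hf : Sm f) (hg : Sm g) (hn : n ≤ 2 * m) (j : Fin 3) {α : List (Fin 3)}
    (hα : α.length ≤ n) :
    |dxl α (fun p => f p * dx j g p) p - f p * dxl α (dx j g) p| ≤ 2 ^ n * (c * d' + c' * d) := by
  have p1 := mul_nonneg h1.nonneg h2'.nonneg
  have p2 := mul_nonneg h1'.nonneg h2.nonneg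
  refine (commu α hf (hg.dx j) (M := c * d' + c' * d) fun β γ hβ hl => ?_).trans ?_
  · have : 0 < β.length := List.length_pos_iff.2 hβ
    by_cases hb : β.length ≤ m
    · exact (mul_le_mul (h1 β hb) (h2' (j :: γ) (by simp only [List.length_cons]; omega))
        (abs_nonneg _) h1.nonneg).trans (le_add_of_nonneg_right p2)
    · exact (mul_le_mul (h1' β (by omega)) (h2 (j :: γ) (by simp only [List.length_cons]; omega))
        (abs_nonneg _) h1'.nonneg).trans (le_add_of_nonneg_left p1)
  · exact (mul_le_mul_of_nonneg_right (by linarith) (add_nonneg p1 p2)).trans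
      (two_pow_le hα (add_nonneg p1 p2))

theorem mem_words {n : ℕ} {α : List (Fin 3)} : α ∈ words n ↔ α.length ≤ n := by
  induction n generalizing α with
  | zero => simp [words]
  | succ n ih =>
    cases α with
    | nil => simp [words]
    | cons j α =>
      simp only [words, List.mem_cons, reduceCtorEq, List.mem_flatMap, List.cons.injEq,
        List.not_mem_nil, or_false, false_or, List.length_cons, Nat.add_le_add_iff_right, ← ih]
      constructor
      · rintro ⟨β, hβ, h | h | h⟩ <;> exact h.2 ▸ hβ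
      · intro h
        refine ⟨α, h, ?_⟩
        fin_cases j <;> simp

/-- Termwise bound of a list sum. -/
theorem abs_list_le {β : Type} (L : List β) {F G : β → ℝ} (H : ∀ t ∈ L, |F t| ≤ G t) :
    |(L.map F).sum| ≤ (L.map G).sum := by
  induction L with
  | nil => simp
  | cons t L ih =>
    simp only [List.map_cons, List.sum_cons]
    exact (abs_add_le _ _).trans (add_le_add (H t (by simp))
      (ih fun s hs => H s (List.mem_cons_of_mem _ hs)))

end Vale.Agent.P354A
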