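import Vale.Agent.P354A.Calc

open scoped ContDiff
open MeasureTheory Set

namespace Vale.Agent.P354A

open Vale.Agent.P354H Vale.Agent.P354C Vale.Agent.P354C.Ix

theorem fd4 (T : ℝ × X3 →L[ℝ] ℝ) (a b c d : ℝ) :
    T (a, b, c, d) = a * T (1, 0) + b * T (0, e 0) + c * T (0, e 1) + d * T (0, e 2) := by
  have : ((a, b, c, d) : ℝ × X3) =
      a • ((1 : ℝ), (0 : X3)) + b • (0, e 0) + c • (0, e 1) + d • (0, e 2) := by
    simp [e]
  rw [this]
  simp only [map_add, map_smul, smul_eq_mul]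

theorem dfr0 (U : ℝ × X3 → Ix → ℝ) (p : ℝ × X3) (i : Ix) : dfr U p 0 i = dt (cmp U i) p +
    dx 0 (cmp U i) p + U p b1 * dx 1 (cmp U i) p + U p b2 * dx 2 (cmp U i) p := by
  have := fd4 (fderiv ℝ (cmp U i) p) 1 1 (U p b1) (U p b2)
  simp only [one_mul] at this
  exact this

theorem dfr1 (U : ℝ × X3 → Ix → ℝ) (p : ℝ × X3) (i : Ix) :
    dfr U p 1 i = dt (cmp U i) p - dx 0 (cmp U i) p := by
  have := fd4 (fderiv ℝ (cmp U i) p) 1 (-1) 0 0
  simp only [one_mul, zero_mul, add_zero, neg_mul, ← sub_eq_add_neg] at this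
  exact this

theorem dfra (U : ℝ × X3 → Ix → ℝ) (p : ℝ × X3) (a : Fin 2) (i : Ix) : dfr U p (ai a) i =
    U p (Pc a 0) * dx 1 (cmp U i) p + U p (Pc a 1) * dx 2 (cmp U i) p := by
  have := fd4 (fderiv ℝ (cmp U i) p) 0 0 (U p (Pc a 0)) (U p (Pc a 1))
  simp only [zero_mul, zero_add] at this
  fin_cases a <;> exact this

theorem top_append (L L' : List (ℤ × Ix × Fin 3 × Ix)) (U : Ix → ℝ) (z : Ix → ℝ × X3 → ℝ)
    (p : ℝ × X3) : top (L ++ L') U z p = top L U z p + top L' U z p := by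
  simp [top]

theorem angS_eq (U : ℝ × X3 → Ix → ℝ) (p : ℝ × X3) (L : List (ℤ × Fin 2 × Ix)) :
    angS (dfr U p) L = top (L.flatMap fun t =>
      [(t.1, Pc t.2.1 0, 1, t.2.2), (t.1, Pc t.2.1 1, 2, t.2.2)]) (U p) (cmp U) p := by
  induction L with
  | nil => rfl
  | cons t L ih =>
    rw [List.flatMap_cons, top_append, ← ih]
    simp only [angS, List.map_cons, List.sum_cons, top, List.map_nil, List.sum_nil, dfra]
    ring

/-- The flat form of the reduced system. -/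
theorem res_flat (U : ℝ × X3 → Ix → ℝ) (p : ℝ × X3) (i : Ix) :
    res (U p) (dfr U p) i = c0 i * dt (cmp U i) p + c1 i * dx 0 (cmp U i) p +
      top (fb i ++ fa i) (U p) (cmp U) p + linS (U p) (lin i) + quadS (U p) (quad i) := by
  have h1 : top (fa i) (U p) (cmp U) p = angS (dfr U p) (angN i) + angS (dfr U p) (angL i) := by
    rw [angS_eq, angS_eq, ← top_append, ← List.flatMap_append]; rfl
  have h2 : linS (U p) (lin i) = linS (U p) (linN i) + linS (U p) (linL i) := by simp [linS, lin]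
  have h3 : quadS (U p) (quad i) = quadS (U p) (quadN i) + quadS (U p) (quadL i) := by
    simp [quadS, quad]
  rw [top_append, h1, h2, h3]
  simp only [res, resN, resL, dfr0, dfr1, c0, c1, fb, top, List.map_cons, List.sum_cons,
    List.map_nil, List.sum_nil, Int.cast_add, Int.cast_sub]
  ring

theorem damp_eq (k : ℝ) (w : Ix → ℝ) (i : Ix) :
    ((quad i).map fun t => (t.1 : ℝ) * (U0 k t.2.1 * w t.2.2 + w t.2.1 * U0 k t.2.2)).sum =
      dmp i * (k / 2) * w i := by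
  cases i <;> simp [quad, quadN, quadL, U0, dmp] <;> ring

theorem fo_ne : ∀ i, ∀ t ∈ fb i ++ fa i, t.2.1 ≠ om ∧ t.2.1 ≠ omb := by decide

theorem U0_eq (k : ℝ) {j : Ix} (h : j ≠ om ∧ j ≠ omb) : U0 k j = 0 := by
  cases j <;> simp_all [U0]

section
variable {k : ℝ} {K w : ℝ × X3 → Ix → ℝ}

theorem ub_sm (hK : ∀ i, ContDiff ℝ ∞ (cmp K i)) (k : ℝ) (i : Ix) : Sm (Ub k K i) :=
  (hK i).sub contDiff_const

theorem dx_ub (hK : ∀ i, ContDiff ℝ ∞ (cmp K i)) (k : ℝ) (i : Ix) (j : Fin 3) :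
    dx j (Ub k K i) = dx j (cmp K i) := by
  have := dv_add (Sm.dif (hK i)) (differentiable_const (-U0 k i)) (0, e j)
  rw [dv_const] at this
  funext p
  exact (congrFun this p).trans (add_zero _)

theorem dv_cmp (hK : ∀ i, ContDiff ℝ ∞ (cmp K i)) (hw : ∀ i, ContDiff ℝ ∞ (cmp w i)) (i : Ix)
    (a p : ℝ × X3) : dv a (cmp (K + w) i) p = dv a (cmp K i) p + dv a (cmp w i) p :=
  congrFun (dv_add (Sm.dif (hK i)) (Sm.dif (hw i)) a) p

/-- The three kinds of terms in the equation of the perturbation. -/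
noncomputable def To (k : ℝ) (K w : ℝ × X3 → Ix → ℝ) (t : ℤ × Ix × Fin 3 × Ix) (p : ℝ × X3) : ℝ :=
  t.1 * (Ub k K t.2.1 p * dx t.2.2.1 (cmp w t.2.2.2) p +
    cmp w t.2.1 p * dx t.2.2.1 (cmp w t.2.2.2) p + cmp w t.2.1 p * dx t.2.2.1 (Ub k K t.2.2.2) p)
noncomputable def Tl (w : ℝ × X3 → Ix → ℝ) (t : ℤ × Ix) (p : ℝ × X3) : ℝ := t.1 * cmp w t.2 p
noncomputable def Tq (k : ℝ) (K w : ℝ × X3 → Ix → ℝ) (t : ℤ × Ix × Ix) (p : ℝ × X3) : ℝ :=
  t.1 * (Ub k K t.2.1 p * cmp w t.2.2 p + cmp w t.2.1 p * cmp w t.2.2 p +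
    cmp w t.2.1 p * Ub k K t.2.2 p)

/-- The left side of the equation of the perturbation. -/
noncomputable def GG (k : ℝ) (K w : ℝ × X3 → Ix → ℝ) (i : Ix) (p : ℝ × X3) : ℝ :=
  c0 i * dt (cmp w i) p + c1 i * dx 0 (cmp w i) p + dmp i * (k / 2) * cmp w i p +
    ((fb i ++ fa i).map fun t => To k K w t p).sum + ((lin i).map fun t => Tl w t p).sum +
    ((quad i).map fun t => Tq k K w t p).sum

theorem list_sub {β : Type} (L : List β) {F G H : β → ℝ} (h : ∀ t ∈ L, F t = G t + H t) :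
    (L.map F).sum = (L.map G).sum + (L.map H).sum := by
  rw [← List.sum_map_add]
  exact congrArg _ (List.map_congr_left h)

theorem res_diff (k : ℝ) (hK : ∀ i, ContDiff ℝ ∞ (cmp K i)) (hw : ∀ i, ContDiff ℝ ∞ (cmp w i))
    (i : Ix) (p : ℝ × X3) :
    res ((K + w) p) (dfr (K + w) p) i = res (K p) (dfr K p) i + GG k K w i p := by
  have h1 : top (fb i ++ fa i) ((K + w) p) (cmp (K + w)) p = top (fb i ++ fa i) (K p) (cmp K) p +
      ((fb i ++ fa i).map fun t => To k K w t p).sum := by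
    refine list_sub _ fun t ht => ?_
    simp only [To, dx_ub hK, Ub, U0_eq k (fo_ne i t ht), dx_eq, dv_cmp hK hw, Pi.add_apply, cmp]
    ring
  have h2 : linS ((K + w) p) (lin i) = linS (K p) (lin i) + ((lin i).map fun t => Tl w t p).sum := by
    refine list_sub _ fun t _ => ?_
    simp only [Tl, Pi.add_apply, cmp]
    ring
  have h3 : quadS ((K + w) p) (quad i) = quadS (K p) (quad i) + (dmp i * (k / 2) * w p i +
      ((quad i).map fun t => Tq k K w t p).sum) := by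
    rw [← damp_eq, ← List.sum_map_add]
    refine list_sub _ fun t _ => ?_
    simp only [Tq, Ub, Pi.add_apply, cmp]
    ring
  rw [res_flat, res_flat, h1, h2, h3, dt_eq, dx_eq, dv_cmp hK hw, dv_cmp hK hw]
  simp only [GG, dt_eq, dx_eq, cmp]
  ring

theorem To_sm (hK : ∀ i, ContDiff ℝ ∞ (cmp K i)) (hw : ∀ i, ContDiff ℝ ∞ (cmp w i))
    (t : ℤ × Ix × Fin 3 × Ix) : Sm (To k K w t) :=
  Sm.cmul ((((ub_sm hK k _).mul (Sm.dx (hw _) _)).add ((hw _).mul (Sm.dx (hw _) _))).add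
    ((hw _).mul ((ub_sm hK k _).dx _))) _

theorem Tl_sm (hw : ∀ i, ContDiff ℝ ∞ (cmp w i)) (t : ℤ × Ix) : Sm (Tl w t) := Sm.cmul (hw _) _

theorem Tq_sm (hK : ∀ i, ContDiff ℝ ∞ (cmp K i)) (hw : ∀ i, ContDiff ℝ ∞ (cmp w i))
    (t : ℤ × Ix × Ix) : Sm (Tq k K w t) :=
  Sm.cmul ((((ub_sm hK k _).mul (hw _)).add ((hw _).mul (hw _))).add
    ((hw _).mul (ub_sm hK k _))) _

theorem GG_dxl (hK : ∀ i, ContDiff ℝ ∞ (cmp K i)) (hw : ∀ i, ContDiff ℝ ∞ (cmp w i)) (i : Ix)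
    (α : List (Fin 3)) : Sm (GG k K w i) ∧ ∀ p, dxl α (GG k K w i) p =
      c0 i * dt (dxl α (cmp w i)) p + c1 i * dx 0 (dxl α (cmp w i)) p +
        dmp i * (k / 2) * dxl α (cmp w i) p +
        ((fb i ++ fa i).map fun t => dxl α (To k K w t) p).sum +
        ((lin i).map fun t => dxl α (Tl w t) p).sum +
        ((quad i).map fun t => dxl α (Tq k K w t) p).sum := by
  have s1 := Sm.cmul (Sm.dt (hw i)) (c0 i)
  have s2 := Sm.cmul (Sm.dx (hw i) 0) (c1 i)
  have s3 := Sm.cmul (hw i) (dmp i * (k / 2))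
  have s4 := sm_list (fb i ++ fa i) (To_sm (k := k) hK hw)
  have s5 := sm_list (lin i) (Tl_sm hw)
  have s6 := sm_list (quad i) (Tq_sm (k := k) hK hw)
  refine ⟨((((s1.add s2).add s3).add s4).add s5).add s6, fun p => ?_⟩
  unfold GG
  rw [dxl_add α ((((s1.add s2).add s3).add s4).add s5) s6,
    dxl_add α (((s1.add s2).add s3).add s4) s5, dxl_add α ((s1.add s2).add s3) s4,
    dxl_add α (s1.add s2) s3, dxl_add α s1 s2, dxl_cmul α (Sm.dt (hw i)),
    dxl_cmul α (Sm.dx (hw i) 0), dxl_cmul α (hw i), dxl_list α _ (To_sm hK hw),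
    dxl_list α _ (Tl_sm hw), dxl_list α _ (Tq_sm hK hw), dt_eq, dx_eq, dxl_dv α (hw i),
    dxl_dv α (hw i)]
  rfl

end

/-- The commuted equation. -/
theorem ceq : CEQ := by
  intro k T K w n m g lo hi p hK hS hp hn hg hlo hhi α hα i
  have hw := hS.sm
  obtain ⟨sG, eG⟩ := GG_dxl (k := k) hK hw i α
  have z : dxl α (GG k K w i) p = 0 := dxl_of_zero α sG fun x => by
    have := hS.eq (p.1, x) hp i
    rw [res_diff k hK hw] at this
    linarith
  rw [eG] at z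
  have hg' : ∀ i, Pb n (Ub k K i) p (g i) := fun i => (hg i).mono n.le_succ le_rfl
  have b1 : |((lin i).map fun t => dxl α (Tl w t) p).sum| ≤
      ((lin i).map fun t => |(t.1 : ℝ)| * hi t.2).sum := abs_list_le _ fun t _ => by
    unfold Tl
    rw [dxl_cmul α (hw _), abs_mul]
    exact mul_le_mul_of_nonneg_left (hhi _ α hα) (abs_nonneg _)
  have b2 : |((quad i).map fun t => dxl α (Tq k K w t) p).sum| ≤
      ((quad i).map fun t => 2 ^ n * (|(t.1 : ℝ)| * (g t.2.1 * hi t.2.2 + hi t.2.1 * g t.2.2 +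
        lo t.2.1 * hi t.2.2 + hi t.2.1 * lo t.2.2))).sum := abs_list_le _ fun t _ => by
    have s1 := (ub_sm hK k t.2.1).mul (hw t.2.2)
    have s2 := (hw t.2.1).mul (hw t.2.2)
    have s3 := (hw t.2.1).mul (ub_sm hK k t.2.2)
    have q1 := (hg' t.2.1).mul (hhi t.2.2) (ub_sm hK k _) (hw _) α hα
    have q2 := (hlo t.2.1).tame (hhi t.2.1) (hlo t.2.2) (hhi t.2.2) (hw _) (hw _) hn α hα
    have q3 := (hhi t.2.1).mul (hg' t.2.2) (hw _) (ub_sm hK k _) α hα
    unfold Tq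
    rw [dxl_cmul α ((s1.add s2).add s3), dxl_add α (s1.add s2) s3, dxl_add α s1 s2, abs_mul,
      mul_left_comm]
    refine mul_le_mul_of_nonneg_left ?_ (abs_nonneg _)
    refine ((abs_add_three _ _ _).trans (add_le_add (add_le_add q1 q2) q3)).trans (le_of_eq ?_)
    ring
  have b3 : |((fb i ++ fa i).map fun t => dxl α (To k K w t) p - t.1 * ((K + w) p t.2.1 *
      dx t.2.2.1 (dxl α (cmp w t.2.2.2)) p)).sum| ≤
      ((fb i ++ fa i).map fun t => 2 ^ n * (|(t.1 : ℝ)| * (g t.2.1 * hi t.2.2.2 +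
        hi t.2.1 * g t.2.2.2 + lo t.2.1 * hi t.2.2.2 + hi t.2.1 * lo t.2.2.2))).sum :=
    abs_list_le _ fun t ht => by
      have s1 := (ub_sm hK k t.2.1).mul (Sm.dx (hw t.2.2.2) t.2.2.1)
      have s2 := (hw t.2.1).mul (Sm.dx (hw t.2.2.2) t.2.2.1)
      have s3 := (hw t.2.1).mul ((ub_sm hK k t.2.2.2).dx t.2.2.1)
      have q1 := commu1 (hg' t.2.1) (hhi t.2.2.2) (ub_sm hK k _) (hw _) t.2.2.1 hα
      have q2 := commu2 (hlo t.2.1) (hhi t.2.1) (hlo t.2.2.2) (hhi t.2.2.2) (hw _) (hw _) hn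
        t.2.2.1 hα
      have q3 := (hhi t.2.1).mul ((hg t.2.2.2).dx t.2.2.1) (hw _) ((ub_sm hK k _).dx _) α hα
      have e1 : dx t.2.2.1 (dxl α (cmp w t.2.2.2)) = dxl α (dx t.2.2.1 (cmp w t.2.2.2)) :=
        (dxl_dv α (hw _) _).symm
      have e2 : (K + w) p t.2.1 = Ub k K t.2.1 p + cmp w t.2.1 p := by
        simp [Ub, cmp, U0_eq k (fo_ne i t ht)]
      unfold To
      rw [dxl_cmul α ((s1.add s2).add s3), dxl_add α (s1.add s2) s3, dxl_add α s1 s2, ← mul_sub,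
        abs_mul, mul_left_comm, e1, e2]
      refine mul_le_mul_of_nonneg_left ?_ (abs_nonneg _)
      refine le_trans (le_of_eq (congrArg _ ?_)) (((abs_add_three _ _ _).trans
        (add_le_add (add_le_add q1 q2) q3)).trans (le_of_eq ?_))
      · ring
      · ring
  have e3 := list_sub (fb i ++ fa i) (F := fun t => dxl α (To k K w t) p)
    (G := fun t => dxl α (To k K w t) p - t.1 * ((K + w) p t.2.1 *
      dx t.2.2.1 (dxl α (cmp w t.2.2.2)) p))
    (H := fun t => t.1 * ((K + w) p t.2.1 * dx t.2.2.1 (dxl α (cmp w t.2.2.2)) p))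
    fun t _ => by ring
  have e4 := top_append (fb i) (fa i) ((K + w) p) (fun j => dxl α (cmp w j)) p
  rw [List.sum_map_mul_left] at b2 b3
  have e5 : RB n i g lo hi = ((lin i).map fun t => |(t.1 : ℝ)| * hi t.2).sum +
      2 ^ n * ((quad i).map fun t => |(t.1 : ℝ)| * (g t.2.1 * hi t.2.2 + hi t.2.1 * g t.2.2 +
        lo t.2.1 * hi t.2.2 + hi t.2.1 * lo t.2.2)).sum +
      2 ^ n * ((fb i ++ fa i).map fun t => |(t.1 : ℝ)| * (g t.2.1 * hi t.2.2.2 +
        hi t.2.1 * g t.2.2.2 + lo t.2.1 * hi t.2.2.2 + hi t.2.1 * lo t.2.2.2)).sum := by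
    simp only [RB, pairs, List.map_append, List.sum_append, List.map_map, Function.comp_def]
    ring
  rw [e5]
  have e6 : top (fb i ++ fa i) ((K + w) p) (fun j => dxl α (cmp w j)) p =
      ((fb i ++ fa i).map fun t => (t.1 : ℝ) * ((K + w) p t.2.1 *
        dx t.2.2.1 (dxl α (cmp w t.2.2.2)) p)).sum := rfl
  unfold prin
  rw [abs_le] at b1 b2 b3 ⊢
  constructor <;> linarith [b1.1, b1.2, b2.1, b2.2, b3.1, b3.2]

end Vale.Agent.P354A
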