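import Vale.Agent.P354C.Defs

open scoped ContDiff
open MeasureTheory Set

namespace Vale.Agent.P354A

open Vale.Agent.P354H Vale.Agent.P354C Vale.Agent.P354C.Ix

/-- Iterated space derivative on space-time; the head of the word is applied first. -/
noncomputable def dxl : List (Fin 3) → (ℝ × X3 → ℝ) → ℝ × X3 → ℝ
  | [], f => f
  | j :: α, f => dxl α (dx j f)

/-- At the point p all space derivatives of order at most n are bounded by c. -/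
def Pb (n : ℕ) (f : ℝ × X3 → ℝ) (p : ℝ × X3) (c : ℝ) : Prop :=
  ∀ α : List (Fin 3), α.length ≤ n → |dxl α f p| ≤ c

/-- The component number i. -/
def cmp {E : Type} (w : E → Ix → ℝ) (i : Ix) (p : E) : ℝ := w p i

/-- The weight a in the null variables and a bounded primitive A. -/
structure Wt (k : ℝ) (a A : ℝ → ℝ) (A0 : ℝ) : Prop where
  pos : ∀ y, 0 < a y
  le : ∀ y, a y ≤ 1
  even : ∀ y, a (-y) = a y
  der : ∀ y, ∃ a', HasDerivAt a a' y ∧ |a'| ≤ k / 64 * a y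
  prim : ∀ y, HasDerivAt A (a y) y
  nn : ∀ y, 0 ≤ A y
  bd : ∀ y, A y ≤ A0

/-- Weights comparable with the power -s of the Japanese bracket exist. -/
def WT : Prop :=
  ∀ k s : ℝ, 0 < k → 1 < s → ∃ (a A : ℝ → ℝ) (A0 c : ℝ), Wt k a A A0 ∧ ContDiff ℝ ∞ a ∧
    ∀ y, (1 + y ^ 2) ^ (-s / 2) ≤ a y ∧ a y ≤ c * (1 + y ^ 2) ^ (-s / 2)

/-- The constant part of the background. -/
noncomputable def U0 (k : ℝ) : Ix → ℝ
  | .om => -k / 2
  | .omb => -k / 2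
  | _ => 0

/-- The decaying part of the background. -/
noncomputable def Ub (k : ℝ) (K : ℝ × X3 → Ix → ℝ) (i : Ix) (p : ℝ × X3) : ℝ := K p i - U0 k i

/-- The unit of exponential decay. -/
noncomputable def ex (k : ℝ) (m : ℝ) (t : ℝ) : ℝ := Real.exp (-(m * k / 16) * t)

/-- Psi1 and Psi3. -/
def isQ : Ix → Bool
  | .be1 | .be2 | .bb1 | .bb2 => true
  | _ => false

/-- The size of the background. -/
noncomputable def gB (k η : ℝ) (i : Ix) (t : ℝ) : ℝ := η * ex k (if isQ i then 16 else 8) t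

/-- The background: smooth; K - U0 is O(exp (-k tau / 2)), for Psi1, Psi3 O(exp (-k tau)). -/
structure Bg (k η : ℝ) (n : ℕ) (K : ℝ × X3 → Ix → ℝ) : Prop where
  sm : ∀ i, ContDiff ℝ ∞ (cmp K i)
  bd : ∀ i p, 0 ≤ p.1 → Pb n (Ub k K i) p (gB k η i p.1)

/-- The equation for the perturbation w of the background K at p. -/
def Eqn (K w : ℝ × X3 → Ix → ℝ) (p : ℝ × X3) : Prop :=
  ∀ i, res ((K + w) p) (dfr (K + w) p) i = res (K p) (dfr K p) i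

/-- A smooth solution with compact support on the strip 0 ≤ tau ≤ T. -/
structure Sol (K w : ℝ × X3 → Ix → ℝ) (T : ℝ) : Prop where
  sm : ∀ i, ContDiff ℝ ∞ (cmp w i)
  cs : ∀ i, HasCompactSupport (cmp w i)
  eq : ∀ p : ℝ × X3, p.1 ∈ Icc 0 T → Eqn K w p

/-- Small data supported in a cube of the angular variables. -/
structure Dat (a : ℝ → ℝ) (r ε : ℝ) (n : ℕ) (w0 : X3 → Ix → ℝ) : Prop where
  bd : ∀ i (α : List (Fin 3)), α.length ≤ n → ∀ x, |pdl α (cmp w0 i) x| ≤ ε * a x.1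
  supp : ∀ x : X3, r < |x.2.1| ∨ r < |x.2.2| → w0 x = 0

/-- Classes: V undamped, V damped, U undamped, U damped, Psi2, odd, frame. -/
inductive Cl
  | V | Vd | U | Ud | M | D | P
  deriving DecidableEq

def cls : Ix → Cl
  | .b1 | .b2 | .om | .r0 | .a1 | .a2 => .V
  | .X11 | .X12 | .X21 | .X22 => .Vd
  | .omb | .ab1 | .ab2 => .U
  | .Y11 | .Y12 | .Y21 | .Y22 => .Ud
  | .rho | .sig => .M
  | .O | .P11 | .P12 | .P21 | .P22 => .P
  | _ => .D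

/-- The bounds of the first pass at (t, x): u = t - x, v = t + x. -/
noncomputable def bY (k : ℝ) (a : ℝ → ℝ) (c : Cl) (t x : ℝ) : ℝ :=
  match c with
  | .V | .Vd => a (t + x)
  | .U | .Ud => a (t - x)
  | .M => a (t - x) * a (t + x) + ex k 2 t * a x
  | .D => ex k 2 t * a x
  | .P => ex k 4 t * a x

/-- The odd unknowns. -/
def odd (i : Ix) : Bool := cls i = .D ∨ cls i = .P

/-- The sharp bounds of the second pass for the odd unknowns. -/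
noncomputable def bZ (k : ℝ) (a : ℝ → ℝ) (i : Ix) (t x : ℝ) : ℝ :=
  match i with
  | .be1 | .be2 => ex k 8 t * (a (t + x) + ex k 1 t)
  | .bb1 | .bb2 => ex k 8 t * (a (t - x) + ex k 1 t)
  | _ => ex k 8 t

/-- All pointwise bounds at p. -/
structure Out (k : ℝ) (a : ℝ → ℝ) (c : ℝ) (J : ℕ) (w : ℝ × X3 → Ix → ℝ) (p : ℝ × X3) :
    Prop where
  X : ∀ i, Pb (J + 2) (cmp w i) p (c * (ex k (-1) p.1 * a p.2.1))
  Y : ∀ i, Pb (J + 1) (cmp w i) p (c * bY k a (cls i) p.1 p.2.1)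
  Z : ∀ i, odd i → Pb J (cmp w i) p (c * bZ k a i p.1 p.2.1)

/-- The a priori estimates. -/
def EST : Prop :=
  ∀ (k : ℝ) (a A : ℝ → ℝ) (A0 r : ℝ) (J : ℕ), 0 < k → Wt k a A A0 → 3 ≤ J →
    ∃ η ε0 C : ℝ, 0 < η ∧ 0 < ε0 ∧ 0 < C ∧ ∀ (K w : ℝ × X3 → Ix → ℝ) (T ε : ℝ),
      Bg k η (J + 6) K → 0 < ε → ε ≤ ε0 → Sol K w T → Dat a r ε (J + 5) (sl w 0) →
      (∀ p : ℝ × X3, p.1 ∈ Icc 0 T → Out k a (C * ε) J w p) ∧
      ∀ R, (∀ i, Hk (J + 5) (cmp (sl w 0) i) R) →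
        ∀ t ∈ Icc 0 T, ∀ i, Hk (J + 5) (cmp (sl w t) i) (C * Real.exp (k * t) * R)

/-- Global existence with all estimates. For negative times the solution is bounded. -/
def EXIST : Prop :=
  ∀ (k : ℝ) (a A : ℝ → ℝ) (A0 r : ℝ) (J : ℕ), 0 < k → Wt k a A A0 → 3 ≤ J →
    ∃ η ε0 C : ℝ, 0 < η ∧ 0 < ε0 ∧ 0 < C ∧ ∀ (Cb : ℕ → ℝ) (R : ℝ), ∃ δ c : ℝ, 0 < δ ∧ δ ≤ 1 ∧
      ∀ (K : ℝ × X3 → Ix → ℝ) (w0 : X3 → Ix → ℝ) (ε : ℝ), Bg k η (J + 6) K →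
        (∀ m, ∀ t ∈ Icc (-1 : ℝ) 1, ∀ i, Sb m (cmp (sl K t) i) (Cb m)) →
        (∀ T : ℝ, ∃ C' : ℕ → ℝ, ∀ m, ∀ t ∈ Icc (-1) T, ∀ i, Sb m (cmp (sl K t) i) (C' m)) →
        0 < ε → ε ≤ ε0 → (∀ i, Good (cmp w0 i)) → Dat a r ε (J + 5) w0 →
        (∀ i, Hk 8 (cmp w0 i) R) →
        ∃ w : ℝ × X3 → Ix → ℝ, (∀ i, ContDiff ℝ ∞ (cmp w i)) ∧ sl w 0 = w0 ∧
          (∀ p : ℝ × X3, -δ ≤ p.1 → Eqn K w p) ∧
          (∀ p : ℝ × X3, p.1 ∈ Icc (-δ) 0 → ∀ i, |w p i| ≤ c) ∧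
          (∀ p : ℝ × X3, 0 ≤ p.1 → Out k a (C * ε) J w p) ∧
          ∀ T, ∃ w', Sol K w' T ∧ ∀ p : ℝ × X3, p.1 < T + 1 → w' p = w p

/-! ### The pieces of the proof -/

/-- The tables in flat form. An entry (c, m, j, i) of fb, fa is the term c * U_m * dx j U_i. -/
def c0 (i : Ix) : ℤ := cN i + cL i
def c1 (i : Ix) : ℤ := cL i - cN i
def Pc : Fin 2 → Fin 2 → Ix := ![![P11, P12], ![P21, P22]]
def fb (i : Ix) : List (ℤ × Ix × Fin 3 × Ix) := [(cL i, b1, 1, i), (cL i, b2, 2, i)]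
def fa (i : Ix) : List (ℤ × Ix × Fin 3 × Ix) :=
  (angN i ++ angL i).flatMap fun t => [(t.1, Pc t.2.1 0, 1, t.2.2), (t.1, Pc t.2.1 1, 2, t.2.2)]
def lin (i : Ix) : List (ℤ × Ix) := linN i ++ linL i
def quad (i : Ix) : List (ℤ × Ix × Ix) := quadN i ++ quadL i
def pairs (i : Ix) : List (ℤ × Ix × Ix) :=
  quad i ++ (fb i ++ fa i).map fun t => (t.1, t.2.1, t.2.2.2)

/-- The damping rate in units of k / 2. -/
def dmp : Ix → ℤ
  | .b1 | .b2 | .om | .omb | .r0 | .a1 | .a2 | .ab1 | .ab2 => 0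
  | .X11 | .X12 | .X21 | .X22 | .Y11 | .Y12 | .Y21 | .Y22 => 2
  | .be1 | .be2 | .rho | .sig | .bb1 | .bb2 => 4
  | _ => 1

/-- The first order terms of a list, with coefficients U and unknowns z. -/
noncomputable def top (L : List (ℤ × Ix × Fin 3 × Ix)) (U : Ix → ℝ) (z : Ix → ℝ × X3 → ℝ)
    (p : ℝ × X3) : ℝ :=
  (L.map fun t => (t.1 : ℝ) * (U t.2.1 * dx t.2.2.1 (z t.2.2.2) p)).sum

/-- The principal part and the damping of the equation number i. -/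
noncomputable def prin (k : ℝ) (U : Ix → ℝ) (z : Ix → ℝ × X3 → ℝ) (i : Ix) (p : ℝ × X3) : ℝ :=
  c0 i * dt (z i) p + c1 i * dx 0 (z i) p + dmp i * (k / 2) * z i p + top (fb i) U z p +
    top (fa i) U z p

/-- The bound of the lower order terms: g background, lo low orders, hi all orders. -/
noncomputable def RB (n : ℕ) (i : Ix) (g lo hi : Ix → ℝ) : ℝ :=
  ((lin i).map fun t => |(t.1 : ℝ)| * hi t.2).sum + 2 ^ n * ((pairs i).map fun t =>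
    |(t.1 : ℝ)| * (g t.2.1 * hi t.2.2 + hi t.2.1 * g t.2.2 + lo t.2.1 * hi t.2.2 +
      hi t.2.1 * lo t.2.2)).sum

/-- The bound of the angular terms of top order. -/
noncomputable def AB (i : Ix) (g lo H : Ix → ℝ) : ℝ :=
  ((fa i).map fun t => |(t.1 : ℝ)| * ((g t.2.1 + lo t.2.1) * H t.2.2.2)).sum

/-- The commuted equation. -/
def CEQ : Prop :=
  ∀ (k T : ℝ) (K w : ℝ × X3 → Ix → ℝ) (n m : ℕ) (g lo hi : Ix → ℝ) (p : ℝ × X3),
    (∀ i, ContDiff ℝ ∞ (cmp K i)) → Sol K w T → p.1 ∈ Icc 0 T → n ≤ 2 * m →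
    (∀ i, Pb (n + 1) (Ub k K i) p (g i)) → (∀ i, Pb m (cmp w i) p (lo i)) →
    (∀ i, Pb n (cmp w i) p (hi i)) → ∀ α : List (Fin 3), α.length ≤ n → ∀ i,
      |prin k ((K + w) p) (fun j => dxl α (cmp w j)) i p| ≤ RB n i g lo hi

/-- All words of length at most n. -/
def words : ℕ → List (List (Fin 3))
  | 0 => [[]]
  | n + 1 => [] :: (words n).flatMap fun α => [0 :: α, 1 :: α, 2 :: α]

/-- The energy density of order n. -/
noncomputable def en (n : ℕ) (w : ℝ × X3 → Ix → ℝ) (p : ℝ × X3) : ℝ :=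
  ∑ i, ((words n).map fun α => dxl α (cmp w i) p ^ 2).sum

/-- The crude weighted energy estimate. -/
def XEN : Prop :=
  ∀ (k : ℝ) (n m : ℕ), 0 < k → n ≤ 2 * m → 1 ≤ m → ∃ θ C : ℝ, 0 < θ ∧ 0 < C ∧
    ∀ (K w : ℝ × X3 → Ix → ℝ) (T : ℝ), Bg k θ (n + 1) K → Sol K w T →
      (∀ p : ℝ × X3, p.1 ∈ Icc 0 T → ∀ i, Pb m (cmp w i) p θ) →
      ∀ ψ : ℝ → ℝ, ContDiff ℝ 1 ψ → (∀ y, 0 ≤ ψ y) → (∀ y, |deriv ψ y| ≤ k / 16 * ψ y) →
        ∀ t ∈ Icc 0 T, ∫ x : X3, ψ x.1 * en n w (t, x) ≤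
          C * Real.exp (k / 8 * t) * ∫ x : X3, ψ x.1 * en n w (0, x)

/-- The crude pointwise estimate and the estimate in the Sobolev space. -/
def XPT : Prop :=
  ∀ (k : ℝ) (a A : ℝ → ℝ) (A0 r : ℝ) (m : ℕ), 0 < k → Wt k a A A0 → 4 ≤ m →
    ∃ θ C : ℝ, 0 < θ ∧ 0 < C ∧ ∀ (K w : ℝ × X3 → Ix → ℝ) (T : ℝ), Bg k θ (m + 5) K →
      Sol K w T → (∀ p : ℝ × X3, p.1 ∈ Icc 0 T → ∀ i, Pb m (cmp w i) p θ) →
      (∀ ε, 0 ≤ ε → Dat a r ε (m + 4) (sl w 0) → ∀ p : ℝ × X3, p.1 ∈ Icc 0 T → ∀ i,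
        Pb (m + 1) (cmp w i) p (C * ε * (ex k (-1) p.1 * a p.2.1))) ∧
      ∀ R, (∀ i, Hk (m + 4) (cmp (sl w 0) i) R) →
        ∀ t ∈ Icc 0 T, ∀ i, Hk (m + 4) (cmp (sl w t) i) (C * Real.exp (k * t) * R)

/-- The barrier B of the unknown i beats the sources at (t, x). -/
def Beats (k : ℝ) (n : ℕ) (i : Ix) (B : ℝ → ℝ → ℝ) (g lo H : Ix → ℝ) (t x : ℝ) : Prop :=
  ∃ B', HasDerivAt (fun s : ℝ => B (t + c0 i * s) (x + c1 i * s)) B' 0 ∧
    RB n i g lo lo + AB i g lo H < B' + dmp i * (k / 2) * B t x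

/-- The barrier argument for the active unknowns. -/
def BAR : Prop :=
  ∀ (k T : ℝ) (K w : ℝ × X3 → Ix → ℝ) (n : ℕ) (act : Ix → Prop) (g lo H : Ix → ℝ → ℝ → ℝ),
    (∀ i, ContDiff ℝ ∞ (cmp K i)) → Sol K w T →
    (∀ p : ℝ × X3, p.1 ∈ Icc 0 T → ∀ i, Pb (n + 1) (Ub k K i) p (g i p.1 p.2.1)) →
    (∀ i, act i → Continuous (fun q : ℝ × ℝ => lo i q.1 q.2) ∧
      ∀ t ∈ Icc 0 T, ∀ x, 0 < lo i t x ∧
        Beats k n i (lo i) (fun j => g j t x) (fun j => lo j t x) (fun j => H j t x) t x) →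
    (∀ i, act i → ∀ α : List (Fin 3), α.length ≤ n → ∀ x,
      |dxl α (cmp w i) (0, x)| < lo i 0 x.1) →
    (∀ t ∈ Icc 0 T, (∀ p : ℝ × X3, p.1 ∈ Icc 0 t → ∀ i, act i → Pb n (cmp w i) p (lo i p.1 p.2.1)) →
      ∀ x i, Pb n (cmp w i) (t, x) (lo i t x.1) ∧ Pb (n + 1) (cmp w i) (t, x) (H i t x.1)) →
    ∀ p : ℝ × X3, p.1 ∈ Icc 0 T → ∀ i, act i → Pb n (cmp w i) p (lo i p.1 p.2.1)

/-- The Weyl components. -/
def isW : Ix → Bool
  | .a1 | .a2 | .be1 | .be2 | .rho | .sig | .bb1 | .bb2 | .ab1 | .ab2 => true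
  | _ => false

/-- The connection coefficients get the large factor Λ. -/
noncomputable def amp (Λ : ℝ) (i : Ix) : ℝ := if isW i then 1 else Λ

/-- The factors which absorb the undamped sources. -/
noncomputable def ph (k : ℝ) (A : ℝ → ℝ) (t y : ℝ) : ℝ := 2 + A y - ex k 1 t

/-- The barriers of the first pass. -/
noncomputable def barY (k : ℝ) (a A : ℝ → ℝ) (c : Cl) (t x : ℝ) : ℝ :=
  match c with
  | .V => a (t + x) * ph k A t (t - x)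
  | .U => a (t - x) * ph k A t (t + x)
  | c => bY k a c t x

/-- The barriers of the second pass (for the even unknowns: the bounds of the first pass). -/
noncomputable def barZ (k : ℝ) (a A : ℝ → ℝ) (i : Ix) (t x : ℝ) : ℝ :=
  if odd i then
    (if isW i then bZ k a i t x
     else if cN i = 1 then ex k 8 t * ph k A t (t - x) else ex k 8 t * ph k A t (t + x))
  else barY k a A (cls i) t x

/-- The barriers of both passes beat the sources. -/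
def YZIN : Prop :=
  ∀ (k : ℝ) (a A : ℝ → ℝ) (A0 CX : ℝ) (n : ℕ), 0 < k → Wt k a A A0 → 0 < CX →
    ∃ Λ η ε0 : ℝ, 1 ≤ Λ ∧ 0 < η ∧ 0 < ε0 ∧ ∀ ε, 0 < ε → ε ≤ ε0 → ∀ t x : ℝ, 0 ≤ t → ∀ i,
      Beats k (n + 1) i (fun t x => ε * amp Λ i * barY k a A (cls i) t x) (fun j => gB k η j t)
        (fun j => ε * amp Λ j * barY k a A (cls j) t x)
        (fun _ => CX * ε * (ex k (-1) t * a x)) t x ∧
      (odd i → Beats k n i (fun t x => ε * amp Λ i * barZ k a A i t x) (fun j => gB k η j t)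
        (fun j => ε * amp Λ j * barZ k a A j t x)
        (fun j => ε * amp Λ j * barY k a A (cls j) t x) t x)

end Vale.Agent.P354A
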