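import Vale.Agent.P354A.Bar

open scoped ContDiff
open MeasureTheory Set Filter Topology

namespace Vale.Agent.P354A

open Vale.Agent.P354H Vale.Agent.P354C Vale.Agent.P354C.Ix

variable {k A0 : ℝ} {a A : ℝ → ℝ}

theorem ex_pos (k m t : ℝ) : 0 < ex k m t := Real.exp_pos _

theorem ex_zero (k m : ℝ) : ex k m 0 = 1 := by simp [ex]

theorem ex_le (hk : 0 < k) {m t : ℝ} (hm : 0 ≤ m) (ht : 0 ≤ t) : ex k m t ≤ 1 :=
  Real.exp_le_one_iff.2 (by have := mul_nonneg (mul_nonneg hm hk.le) ht; linarith)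

theorem ex_cont (k m : ℝ) : Continuous (ex k m) := by unfold ex; fun_prop

theorem Wt.ca (h : Wt k a A A0) : Continuous a :=
  continuous_iff_continuousAt.2 fun y => (h.der y).choose_spec.1.continuousAt

theorem Wt.cA (h : Wt k a A A0) : Continuous A :=
  continuous_iff_continuousAt.2 fun y => (h.prim y).continuousAt

theorem Wt.A0_nn (h : Wt k a A A0) : 0 ≤ A0 := (h.nn 0).trans (h.bd 0)

theorem ph_mem (hk : 0 < k) (h : Wt k a A A0) {t : ℝ} (ht : 0 ≤ t) (y : ℝ) :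
    1 ≤ ph k A t y ∧ ph k A t y ≤ 2 + A0 := by
  have := ex_le hk zero_le_one ht
  have := ex_pos k 1 t
  have := h.nn y
  have := h.bd y
  unfold ph
  constructor <;> linarith

theorem bY_mem (hk : 0 < k) (h : Wt k a A A0) (c : Cl) {t : ℝ} (ht : 0 ≤ t) (x : ℝ) :
    0 < bY k a c t x ∧ bY k a c t x ≤ 2 := by
  have p1 := h.pos (t + x)
  have p2 := h.pos (t - x)
  have p3 := h.pos x
  have q1 := h.le (t + x)
  have q2 := h.le (t - x)
  have q3 := h.le x
  have e2 := ex_le hk (m := 2) (by norm_num) ht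
  have e4 := ex_le hk (m := 4) (by norm_num) ht
  have f2 := ex_pos k 2 t
  have f4 := ex_pos k 4 t
  have g1 := mul_le_one₀ e2 p3.le q3
  have g2 := mul_le_one₀ e4 p3.le q3
  have g3 := mul_le_one₀ q2 p1.le q1
  cases c <;> simp only [bY] <;> refine ⟨by positivity, by linarith⟩

theorem barY_mem (hk : 0 < k) (h : Wt k a A A0) (c : Cl) {t : ℝ} (ht : 0 ≤ t) (x : ℝ) :
    bY k a c t x ≤ barY k a A c t x ∧ barY k a A c t x ≤ (2 + A0) * bY k a c t x := by
  have p := (bY_mem hk h c ht x).1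
  have q1 := ph_mem hk h ht (t - x)
  have q2 := ph_mem hk h ht (t + x)
  have q3 : 1 ≤ 2 + A0 := by linarith [h.A0_nn]
  cases c <;> simp only [barY, bY] at p ⊢ <;> constructor <;> nlinarith [q1.1, q1.2, q2.1, q2.2]

theorem bY_zero (h : Wt k a A A0) (c : Cl) (x : ℝ) : a x ≤ bY k a c 0 x := by
  have := mul_pos (h.pos x) (h.pos x)
  cases c <;> simp only [bY, zero_add, zero_sub, h.even, ex_zero, one_mul, le_refl]
  linarith

theorem barY_cont (h : Wt k a A A0) (c : Cl) :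
    Continuous fun q : ℝ × ℝ => barY k a A c q.1 q.2 := by
  have := h.ca
  have := h.cA
  have := ex_cont k
  cases c <;> simp only [barY, bY, ph] <;> fun_prop

theorem bZ_pos (h : Wt k a A A0) (i : Ix) (t x : ℝ) : 0 < bZ k a i t x := by
  have := h.pos (t + x)
  have := h.pos (t - x)
  have := ex_pos k 8 t
  have := ex_pos k 1 t
  cases i <;> simp only [bZ] <;> positivity

theorem bZ_zero (h : Wt k a A A0) (i : Ix) (x : ℝ) : 1 ≤ bZ k a i 0 x := by
  have := h.pos x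
  cases i <;> simp only [bZ, zero_add, zero_sub, h.even, ex_zero, one_mul, le_refl] <;> linarith

theorem bZ_nw {i : Ix} (hi : ¬ isW i) (t x : ℝ) : bZ k a i t x = ex k 8 t := by
  cases i <;> first | rfl | exact absurd rfl hi

theorem barZ_mem (hk : 0 < k) (h : Wt k a A A0) {i : Ix} (hi : odd i) {t : ℝ} (ht : 0 ≤ t)
    (x : ℝ) : bZ k a i t x ≤ barZ k a A i t x ∧ barZ k a A i t x ≤ (2 + A0) * bZ k a i t x := by
  have p := bZ_pos h i t x
  have q1 := ph_mem hk h ht (t - x)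
  have q2 := ph_mem hk h ht (t + x)
  have q3 : 1 ≤ 2 + A0 := by linarith [h.A0_nn]
  unfold barZ
  rw [if_pos hi]
  split_ifs with h1 h2
  · constructor <;> nlinarith
  · rw [bZ_nw h1] at p ⊢
    constructor <;> nlinarith [q1.1, q1.2]
  · rw [bZ_nw h1] at p ⊢
    constructor <;> nlinarith [q2.1, q2.2]

theorem barZ_cont (h : Wt k a A A0) (i : Ix) :
    Continuous fun q : ℝ × ℝ => barZ k a A i q.1 q.2 := by
  have := h.ca
  have := h.cA
  have := ex_cont k
  unfold barZ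
  split_ifs
  · cases i <;> simp only [bZ] <;> fun_prop
  · unfold ph; fun_prop
  · unfold ph; fun_prop
  · exact barY_cont h _

theorem amp_mem {Λ : ℝ} (h : 1 ≤ Λ) (i : Ix) : 1 ≤ amp Λ i ∧ amp Λ i ≤ Λ := by
  unfold amp
  split_ifs <;> exact ⟨by linarith, by linarith⟩

theorem Bg.mono {η η' : ℝ} {n : ℕ} {K : ℝ × X3 → Ix → ℝ} (h : Bg k η n K) (hη : η ≤ η') :
    Bg k η' n K :=
  ⟨h.sm, fun i p hp => (h.bd i p hp).mono le_rfl
    (mul_le_mul_of_nonneg_right hη (ex_pos _ _ _).le)⟩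

theorem Sol.mono {K w : ℝ × X3 → Ix → ℝ} {T t : ℝ} (h : Sol K w T) (ht : t ≤ T) : Sol K w t :=
  ⟨h.sm, h.cs, fun p hp => h.eq p ⟨hp.1, hp.2.trans ht⟩⟩

theorem Dat.init {r ε : ℝ} {n : ℕ} {w : ℝ × X3 → Ix → ℝ} (h : Dat a r ε n (sl w 0))
    (hw : ∀ i, ContDiff ℝ ∞ (cmp w i)) (i : Ix) {α : List (Fin 3)} (hα : α.length ≤ n) (x : X3) :
    |dxl α (cmp w i) (0, x)| ≤ ε * a x.1 := by
  rw [dxl_eq_pdl α (hw i)]
  exact h.bd i α hα x

/-- The a priori estimates. -/
theorem est (hX : XPT) (hYZ : YZIN) : EST := by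
  intro k a A A0 r J hk hW hJ
  obtain ⟨θ, CX, hθ, hCX, HX⟩ := hX k a A A0 r (J + 1) hk hW (by omega)
  obtain ⟨Λ, η, ε1, hΛ, hη, hε1, HY⟩ := hYZ k a A A0 CX J hk hW hCX
  have hA : 0 < 2 + A0 := by linarith [hW.A0_nn]
  have hL : 0 < Λ * (2 + A0) := mul_pos (by linarith) hA
  refine ⟨min η θ, min (ε1 / 2) (θ / (4 * (Λ * (2 + A0)))), CX + 2 * (Λ * (2 + A0)),
    lt_min hη hθ, lt_min (half_pos hε1) (by positivity), by positivity, ?_⟩
  intro K w T ε hK hε hε0 hS hD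
  have hK1 := hK.mono (min_le_left η θ)
  have hK2 := hK.mono (min_le_right η θ)
  have he1 : 2 * ε ≤ ε1 := by linarith [hε0.trans (min_le_left _ _)]
  have he2 : ε * (4 * (Λ * (2 + A0))) ≤ θ :=
    (le_div_iff₀ (by positivity)).1 (hε0.trans (min_le_right _ _))
  have up : ∀ i {b c : ℝ}, 0 ≤ b → b ≤ (2 + A0) * c →
      2 * ε * amp Λ i * b ≤ 2 * (Λ * (2 + A0)) * ε * c := fun i b c hb hc =>
    (mul_le_mul (mul_le_mul_of_nonneg_left (amp_mem hΛ i).2 (by positivity)) hc hb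
      (by positivity)).trans (le_of_eq (by ring))
  have small : ∀ i (t x : ℝ), 0 ≤ t → 2 * ε * amp Λ i * barY k a A (cls i) t x ≤ θ :=
    fun i t x ht => by
      have b1 := bY_mem hk hW (cls i) ht x
      have b2 := barY_mem hk hW (cls i) ht x
      refine (up i (b1.1.le.trans b2.1) b2.2).trans ?_
      have := mul_le_mul_of_nonneg_left b1.2 (show 0 ≤ 2 * (Λ * (2 + A0)) * ε by positivity)
      linarith
  have lt0 : ∀ i (x : ℝ) {b : ℝ}, a x ≤ b → ε * a x < 2 * ε * amp Λ i * b := fun i x b hb => by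
    have p := mul_pos hε (hW.pos x)
    have q := mul_le_mul (amp_mem hΛ i).1 hb (hW.pos x).le (by linarith [(amp_mem hΛ i).1])
    have := mul_le_mul_of_nonneg_left q (show 0 ≤ 2 * ε by positivity)
    linarith
  have pos : ∀ i {b : ℝ}, 0 < b → 0 < 2 * ε * amp Λ i * b := fun i b hb =>
    mul_pos (mul_pos (by positivity) (by linarith [(amp_mem hΛ i).1])) hb
  have hY : ∀ p : ℝ × X3, p.1 ∈ Icc 0 T → ∀ i, Pb (J + 1) (cmp w i) p
      (2 * ε * amp Λ i * barY k a A (cls i) p.1 p.2.1) := fun p hp i => by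
    refine bar k T K w (J + 1) (fun _ => True) (fun i t _ => gB k η i t)
      (fun i t x => 2 * ε * amp Λ i * barY k a A (cls i) t x)
      (fun _ t x => CX * (2 * ε) * (ex k (-1) t * a x)) hK.sm hS
      (fun p hp i => (hK1.bd i p hp.1).mono (by omega) le_rfl)
      (fun i _ => ⟨continuous_const.mul (barY_cont hW _), fun t ht x =>
        ⟨pos i ((bY_mem hk hW _ ht.1 x).1.trans_le (barY_mem hk hW _ ht.1 x).1),
          (HY (2 * ε) (by positivity) he1 t x ht.1 i).1⟩⟩)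
      (fun i _ α hα x => (hD.init hS.sm i (by omega) x).trans_lt
        (lt0 i _ ((bY_zero hW _ _).trans (barY_mem hk hW _ le_rfl _).1)))
      (fun t ht hb x i => ⟨hb (t, x) ⟨ht.1, le_rfl⟩ i trivial, ?_⟩) p hp i trivial
    refine ((HX K w t hK2 (hS.mono ht.2) fun p hp i => (hb p hp i trivial).mono le_rfl
      (small i _ _ hp.1)).1 ε hε.le hD (t, x) ⟨ht.1, le_rfl⟩ i).mono le_rfl ?_
    exact mul_le_mul_of_nonneg_right (mul_le_mul_of_nonneg_left (by linarith) hCX.le)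
      (mul_pos (ex_pos _ _ _) (hW.pos _)).le
  have hZ : ∀ p : ℝ × X3, p.1 ∈ Icc 0 T → ∀ i, odd i → Pb J (cmp w i) p
      (2 * ε * amp Λ i * barZ k a A i p.1 p.2.1) := by
    refine bar k T K w J (fun i => odd i) (fun i t _ => gB k η i t)
      (fun i t x => 2 * ε * amp Λ i * barZ k a A i t x)
      (fun i t x => 2 * ε * amp Λ i * barY k a A (cls i) t x) hK.sm hS
      (fun p hp i => (hK1.bd i p hp.1).mono (by omega) le_rfl)
      (fun i hi => ⟨continuous_const.mul (barZ_cont hW _), fun t ht x =>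
        ⟨pos i ((bZ_pos hW i t x).trans_le (barZ_mem hk hW hi ht.1 x).1),
          (HY (2 * ε) (by positivity) he1 t x ht.1 i).2 hi⟩⟩)
      (fun i hi α hα x => (hD.init hS.sm i (by omega) x).trans_lt
        (lt0 i _ (((hW.le _).trans (bZ_zero hW i _)).trans (barZ_mem hk hW hi le_rfl _).1)))
      (fun t ht hb x i => ⟨?_, hY (t, x) ht i⟩)
    by_cases hi : odd i
    · exact hb (t, x) ⟨ht.1, le_rfl⟩ i hi
    · simp only [barZ, if_neg hi]
      exact (hY (t, x) ht i).mono J.le_succ le_rfl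
  have hXX := HX K w T hK2 hS fun p hp i => (hY p hp i).mono le_rfl (small i _ _ hp.1)
  have m1 : ∀ {c : ℝ}, 0 ≤ c → CX * ε * c ≤ (CX + 2 * (Λ * (2 + A0))) * ε * c := fun hc =>
    mul_le_mul_of_nonneg_right (mul_le_mul_of_nonneg_right (by linarith) hε.le) hc
  have m2 : ∀ {c : ℝ}, 0 ≤ c → 2 * (Λ * (2 + A0)) * ε * c ≤ (CX + 2 * (Λ * (2 + A0))) * ε * c :=
    fun hc => mul_le_mul_of_nonneg_right (mul_le_mul_of_nonneg_right (by linarith) hε.le) hc
  refine ⟨fun p hp => ⟨fun i => (hXX.1 ε hε.le hD p hp i).mono le_rfl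
    (m1 (mul_pos (ex_pos _ _ _) (hW.pos _)).le), fun i => ?_, fun i hi => ?_⟩,
    fun R hR t ht i α hα => (hXX.2 R hR t ht i α hα).trans ?_⟩
  · have b1 := bY_mem hk hW (cls i) hp.1 p.2.1
    have b2 := barY_mem hk hW (cls i) hp.1 p.2.1
    exact (hY p hp i).mono le_rfl ((up i (b1.1.le.trans b2.1) b2.2).trans (m2 b1.1.le))
  · have b1 := bZ_pos (k := k) hW i p.1 p.2.1
    have b2 := barZ_mem hk hW hi hp.1 p.2.1
    exact (hZ p hp i hi).mono le_rfl ((up i (b1.le.trans b2.1) b2.2).trans (m2 b1.le))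
  · have hR0 : 0 ≤ R := (integral_nonneg fun _ => sq_nonneg _).trans (hR i [] (Nat.zero_le _))
    exact mul_le_mul_of_nonneg_right (mul_le_mul_of_nonneg_right (by linarith)
      (Real.exp_pos _).le) hR0

end Vale.Agent.P354A
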